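import Vale.Agent.P337.Etr

/-! The existential theory of the reals lies in the counting hierarchy. -/

theorem Vale.Agent.Results.P337.InCH.result : Vale.Agent.P337.ETR ∈ Vale.Agent.P337.CH :=
  Vale.Agent.P337.etr
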